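import Mathlib

/-!
# P188, block LAB: group theory

* `exists_core` : in a finitely generated group the intersection of all subgroups of index at most
  `N` has finite index;
* `lab_subgroup` : an almost multiplicative map `T : H → E` whose values are determined up to small
  errors by finitely many labels is almost trivial on a subgroup of index at most the number of
  labels.
-/

set_option linter.all false

namespace Vale.Agent.P188.H671

/-- Homomorphisms from a finitely generated group to a finite group. -/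
theorem finite_hom {H : Type*} [Group H] (hfg : Group.FG H) (P : Type*) [Group P] [Finite P] :
    Finite (H →* P) := by
  obtain ⟨S, hS, hSf⟩ := Group.fg_iff.mp hfg
  haveI := hSf.to_subtype
  refine Finite.of_injective (fun (φ : H →* P) (s : S) => φ s) ?_
  intro φ ψ h
  refine MonoidHom.eq_of_eqOn_dense hS ?_
  intro s hs
  exact congrFun h ⟨s, hs⟩

/-- The intersection of all subgroups of bounded index. -/
theorem exists_core {H : Type*} [Group H] (hfg : Group.FG H) (N : ℕ) :
    ∃ H₀ : Subgroup H, H₀.FiniteIndex ∧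
      ∀ K : Subgroup H, K.index ≠ 0 → K.index ≤ N → H₀ ≤ K := by
  haveI : ∀ n : Fin (N + 1), Finite (H →* Equiv.Perm (Fin n)) := fun n => finite_hom hfg _
  refine ⟨⨅ n : Fin (N + 1), ⨅ φ : H →* Equiv.Perm (Fin n), φ.ker, ?_, ?_⟩
  · refine Subgroup.finiteIndex_iInf fun n => Subgroup.finiteIndex_iInf fun φ => ?_
    infer_instance
  · intro K hK0 hKN
    haveI : Finite (H ⧸ K) := Subgroup.index_ne_zero_iff_finite.mp hK0
    let e : (H ⧸ K) ≃ Fin K.index := Finite.equivFinOfCardEq rfl
    refine (iInf_le _ (⟨K.index, Nat.lt_succ_of_le hKN⟩ : Fin (N + 1))).trans ?_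
    refine (iInf_le _ (e.permCongrHom.toMonoidHom.comp (MulAction.toPermHom H (H ⧸ K)))).trans ?_
    intro x hx
    rw [MonoidHom.mem_ker] at hx
    have h1 : MulAction.toPermHom H (H ⧸ K) x = 1 := by
      apply e.permCongrHom.injective
      rw [map_one]
      exact hx
    have h2 : x ∈ K.normalCore := by
      rw [Subgroup.normalCore_eq_ker]
      exact h1
    exact K.normalCore_le h2

/-- **Labels.** -/
theorem lab_subgroup {H ι E : Type*} [Group H] [Finite ι] [NormedRing E] (lab : H → ι)
    (T : H → E) {L ε c : ℝ} (hL : 1 ≤ L) (hT : ∀ h, ‖T h‖ ≤ L) (hε : 0 ≤ ε)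
    (hmul : ∀ h h', ‖T (h * h') - T h * T h'‖ ≤ ε) (hone : ‖T 1 - 1‖ ≤ ε)
    (hpsi : ∀ h h', lab h = lab h' → ‖T h - T h'‖ ≤ ε)
    (hsep : ∀ h h', ‖T h - T h'‖ < c → lab h = lab h') (hc : 8 * L * ε < c) :
    ∃ H₁ : Subgroup H, H₁.index ≠ 0 ∧ H₁.index ≤ Nat.card ι ∧ ∀ h ∈ H₁, ‖T h - 1‖ ≤ 2 * ε := by
  have hLε : ε ≤ L * ε := by nlinarith
  have key : ∀ h, lab h = lab 1 → ‖T h - 1‖ ≤ 2 * ε := by
    intro h hh
    have h1 := norm_add_le (T h - T 1) (T 1 - 1)
    rw [sub_add_sub_cancel] at h1
    linarith [hpsi h 1 hh]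
  let H₁ : Subgroup H :=
    { carrier := {h | lab h = lab 1}
      one_mem' := rfl
      mul_mem' := by
        intro a b ha hb
        refine hsep _ _ ?_
        have e : T (a * b) - T 1 =
            (T (a * b) - T a * T b) + T a * (T b - 1) + (T a - 1) - (T 1 - 1) := by
          noncomm_ring
        rw [e]
        have h1 := norm_sub_le ((T (a * b) - T a * T b) + T a * (T b - 1) + (T a - 1)) (T 1 - 1)
        have h2 := norm_add₃_le (a := T (a * b) - T a * T b) (b := T a * (T b - 1)) (c := T a - 1)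
        have h3 : ‖T a * (T b - 1)‖ ≤ L * (2 * ε) :=
          (norm_mul_le _ _).trans (mul_le_mul (hT a) (key b hb) (norm_nonneg _) (by linarith))
        have h4 := hmul a b
        have h5 := key a ha
        linarith
      inv_mem' := by
        intro a ha
        refine hsep _ _ ?_
        have e : T a⁻¹ - T 1 = -(T a⁻¹ * (T a - 1)) - (T (a⁻¹ * a) - T a⁻¹ * T a) := by
          rw [inv_mul_cancel]
          noncomm_ring
        rw [e]
        have h1 := norm_sub_le (-(T a⁻¹ * (T a - 1))) (T (a⁻¹ * a) - T a⁻¹ * T a)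
        rw [norm_neg] at h1
        have h3 : ‖T a⁻¹ * (T a - 1)‖ ≤ L * (2 * ε) :=
          (norm_mul_le _ _).trans (mul_le_mul (hT _) (key a ha) (norm_nonneg _) (by linarith))
        have h4 := hmul a⁻¹ a
        linarith }
  have hinj : ∀ a b, lab a = lab b → a⁻¹ * b ∈ H₁ := by
    intro a b hab
    show lab (a⁻¹ * b) = lab 1
    refine hsep _ _ ?_
    have e : T (a⁻¹ * b) - T 1 = (T (a⁻¹ * b) - T a⁻¹ * T b) + T a⁻¹ * (T b - T a)
        - (T (a⁻¹ * a) - T a⁻¹ * T a) := by
      rw [inv_mul_cancel]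
      noncomm_ring
    rw [e]
    have h1 := norm_sub_le ((T (a⁻¹ * b) - T a⁻¹ * T b) + T a⁻¹ * (T b - T a))
      (T (a⁻¹ * a) - T a⁻¹ * T a)
    have h2 := norm_add_le (T (a⁻¹ * b) - T a⁻¹ * T b) (T a⁻¹ * (T b - T a))
    have h3 : ‖T a⁻¹ * (T b - T a)‖ ≤ L * ε :=
      (norm_mul_le _ _).trans (mul_le_mul (hT _) (hpsi b a hab.symm) (norm_nonneg _) (by linarith))
    have h4 := hmul a⁻¹ a
    have h5 := hmul a⁻¹ b
    linarith
  have hinj' : Function.Injective fun q : H ⧸ H₁ => lab q.out := by
    intro q q' h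
    have := hinj _ _ h
    rw [← QuotientGroup.eq, QuotientGroup.out_eq', QuotientGroup.out_eq'] at this
    exact this
  haveI : Finite (H ⧸ H₁) := Finite.of_injective _ hinj'
  refine ⟨H₁, Subgroup.index_ne_zero_iff_finite.mpr this, ?_, fun h hh => key h hh⟩
  exact Nat.card_le_card_of_injective _ hinj'

end Vale.Agent.P188.H671
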